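import Vale.Agent.P052.R2.H353.Defs

/-!
# P052, discrete route, module M6a (helper407): consequences of the Key Lemma and of localisation
-/

namespace P052D

open scoped RealInnerProductSpace
open Module

namespace H407

/-! ## closed colour classes -/

lemma F_unit {n N : ℕ} (C : Col n N) {i : Fin N} {y : E n} (hy : y ∈ C.F i) : ‖y‖ = 1 := by
  have h : C.F i ⊆ {x : E n | ‖x‖ = 1} :=
    closure_minimal (fun x hx => hx.1) (isClosed_eq continuous_norm continuous_const)
  exact h hy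

lemma mem_F {n N : ℕ} (C : Col n N) {x : E n} (hx : ‖x‖ = 1) : x ∈ C.F (C.c x) :=
  subset_closure ⟨hx, rfl⟩

lemma F_neg {n N : ℕ} (C : Col n N) {i : Fin N} {y : E n} (hy : y ∈ C.F i) : -y ∈ C.F i := by
  have h : Set.MapsTo (fun x : E n => -x) {x | ‖x‖ = 1 ∧ C.c x = i} {x | ‖x‖ = 1 ∧ C.c x = i} := by
    rintro x ⟨h1, h2⟩
    exact ⟨by rw [norm_neg]; exact h1, by rw [C.even x h1]; exact h2⟩
  exact h.closure continuous_neg hy

lemma F_sep {n N : ℕ} (C : Col n N) {i : Fin N} {x y : E n} (hx : x ∈ C.F i) (hy : y ∈ C.F i) :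
    C.ε ≤ |⟪x, y⟫| := by
  have hcl : IsClosed {p : E n × E n | C.ε ≤ |⟪p.1, p.2⟫|} :=
    isClosed_le continuous_const (by fun_prop)
  have hsub : {x : E n | ‖x‖ = 1 ∧ C.c x = i} ×ˢ {x : E n | ‖x‖ = 1 ∧ C.c x = i} ⊆
      {p : E n × E n | C.ε ≤ |⟪p.1, p.2⟫|} := by
    rintro ⟨u, v⟩ ⟨⟨h1, h2⟩, ⟨h3, h4⟩⟩
    exact (C.sep u v h1 h3 (h2.trans h4.symm)).le
  have h := closure_minimal hsub hcl
  rw [closure_prod_eq] at h
  exact h (show (x, y) ∈ _ from ⟨hx, hy⟩)

lemma F_orth {n N : ℕ} (C : Col n N) {i j : Fin N} {x y : E n} (hx : x ∈ C.F i)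
    (hy : y ∈ C.F j) (h : ⟪x, y⟫ = 0) : i ≠ j := by
  rintro rfl
  have := F_sep C hx hy
  rw [h, abs_zero] at this
  exact absurd C.ε_pos (not_lt.2 this)

/-! ## the triple function -/

lemma zmod2_add_self (a : ZMod 2) : a + a = 0 := CharTwo.add_self_eq_zero a

lemma zmod2_eq_of_add {a b : ZMod 2} (h : a + b = 0) : a = b := by
  revert a b; decide

lemma zmod2_eq_one {a : ZMod 2} (h : a ≠ 0) : a = 1 := by
  revert a; decide

variable {C : Col 4 10} (K : Key C)

include K in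
lemma tt_degen {x y z : Fin 10} (h : x = y ∨ y = z ∨ x = z) : tt K.s x y z = 0 := by
  unfold tt
  rcases h with rfl | rfl | rfl
  · rw [K.s_self]
    have := zmod2_add_self (K.s x z)
    rw [zero_add]; exact this
  · rw [K.s_self]
    have := zmod2_add_self (K.s x y)
    rw [add_zero]; exact this
  · rw [K.s_self, K.s_symm y x]
    have := zmod2_add_self (K.s x y)
    rw [add_zero]; exact this

include K in
lemma coh_triple {a b c : Fin 10} (h : tt K.s a b c = 0) :
    Coh K.s ({a, b, c} : Finset (Fin 10)) := by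
  intro x hx y hy z hz
  simp only [Finset.mem_insert, Finset.mem_singleton] at hx hy hz
  unfold tt at *
  have e1 := K.s_self a
  have e2 := K.s_self b
  have e3 := K.s_self c
  have f1 := K.s_symm b a
  have f2 := K.s_symm c a
  have f3 := K.s_symm c b
  rcases hx with rfl | rfl | rfl <;> rcases hy with rfl | rfl | rfl <;>
    rcases hz with rfl | rfl | rfl <;> try simp only [e1, e2, e3, f1, f2, f3, zero_add, add_zero]
  all_goals
    first
      | exact zmod2_add_self _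
      | exact h
      | (rw [← h]; ring)

include K in
/-- (4a) -/
lemma tt_zero {y : E 4} {a b c : Fin 10} (ha : y ∈ C.F a) (hb : y ∈ C.F b) (hc : y ∈ C.F c) :
    tt K.s a b c = 0 := by
  have hδ : 0 < K.δ / 2 := half_pos K.δ_pos
  obtain ⟨u, ⟨hu1, hu2⟩, hu⟩ := Metric.mem_closure_iff.1 ha _ hδ
  obtain ⟨v, ⟨hv1, hv2⟩, hv⟩ := Metric.mem_closure_iff.1 hb _ hδ
  obtain ⟨w, ⟨hw1, hw2⟩, hw⟩ := Metric.mem_closure_iff.1 hc _ hδ
  have key : ∀ p q : E 4, dist y p < K.δ / 2 → dist y q < K.δ / 2 → ‖p - q‖ < K.δ := by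
    intro p q hp hq
    rw [← dist_eq_norm]
    calc dist p q ≤ dist p y + dist y q := dist_triangle _ _ _
      _ < K.δ / 2 + K.δ / 2 := by rw [dist_comm p y]; exact add_lt_add hp hq
      _ = K.δ := by ring
  have h1 := K.G_add u v hu1 hv1 (key _ _ hu hv)
  have h2 := K.G_add v w hv1 hw1 (key _ _ hv hw)
  have h3 := K.G_add u w hu1 hw1 (key _ _ hu hw)
  rw [hu2, hv2] at h1
  rw [hv2, hw2] at h2
  rw [hu2, hw2] at h3
  unfold tt
  rw [← h1, ← h2, ← h3]
  generalize K.G u = p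
  generalize K.G v = q
  generalize K.G w = r
  revert p q r
  decide

include K in
/-- (4b) -/
lemma no_plane (U : Submodule ℝ (E 4)) (hU : 2 ≤ finrank ℝ U) (Q : Finset (Fin 10))
    (hQ : Coh K.s Q) (h : ∀ u ∈ U, ‖u‖ = 1 → C.c u ∈ Q) : False := by
  have hrk : 1 < Module.rank ℝ U := by
    rw [← finrank_eq_rank]
    exact_mod_cast hU
  have hpre := isPreconnected_sphere hrk (0 : U) 1
  have : Nontrivial U := by
    apply Module.nontrivial_of_finrank_pos (R := ℝ)
    omega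
  obtain ⟨u0, hu0⟩ : ∃ u : U, ‖u‖ = 1 := exists_norm_eq U zero_le_one
  let _ : TopologicalSpace (ZMod 2) := ⊥
  have : DiscreteTopology (ZMod 2) := ⟨rfl⟩
  set g : U → ZMod 2 := fun u => K.G u + K.s (C.c u0) (C.c u) with hg
  have hloc : ∀ u v : U, ‖u‖ = 1 → ‖v‖ = 1 → ‖(u : E 4) - v‖ < K.δ → g u = g v := by
    intro u v hu hv huv
    have hu' : ‖(u : E 4)‖ = 1 := hu
    have hv' : ‖(v : E 4)‖ = 1 := hv
    have h1 := K.G_add u v hu' hv' huv
    have h2 := hQ _ (h u0 u0.2 hu0) _ (h u u.2 hu') _ (h v v.2 hv')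
    unfold tt at h2
    rw [← h1] at h2
    apply zmod2_eq_of_add
    simp only [hg]
    rw [← h2]
    ring
  have hcont : ContinuousOn g (Metric.sphere (0 : U) 1) := by
    intro u hu
    have hu1 : ‖u‖ = 1 := by simpa using hu
    have hev : ∀ᶠ v in nhdsWithin u (Metric.sphere (0 : U) 1), g v = g u := by
      rw [eventually_nhdsWithin_iff]
      filter_upwards [Metric.ball_mem_nhds u K.δ_pos] with v hv hvs
      have hv1 : ‖v‖ = 1 := by simpa using hvs
      apply hloc v u hv1 hu1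
      rw [Metric.mem_ball, dist_eq_norm] at hv
      exact hv
    exact (tendsto_const_nhds (x := g u)).congr' (hev.mono fun v hv => hv.symm)
  have hmem : u0 ∈ Metric.sphere (0 : U) 1 := by simpa using hu0
  have hmem' : -u0 ∈ Metric.sphere (0 : U) 1 := by simpa using hu0
  have heq := hpre.constant hcont hmem hmem'
  simp only [hg] at heq
  have hn : K.G (-(u0 : E 4)) = K.G u0 + 1 := K.G_neg u0 hu0
  have hcn : C.c (-(u0 : E 4)) = C.c u0 := C.even u0 hu0
  rw [Submodule.coe_neg, hn, hcn] at heq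
  have : (1 : ZMod 2) = 0 := by
    have h3 : K.G (u0 : E 4) + K.s (C.c u0) (C.c u0) + 0 =
      K.G (u0 : E 4) + K.s (C.c u0) (C.c u0) + 1 := by
      rw [add_zero]; nth_rewrite 1 [heq]; ring
    exact (add_left_cancel h3).symm
  exact absurd this (by decide)

/-- a unit vector orthogonal to three vectors -/
lemma exists_orth (a b c : E 4) : ∃ x : E 4, ‖x‖ = 1 ∧ ⟪a, x⟫ = 0 ∧ ⟪b, x⟫ = 0 ∧ ⟪c, x⟫ = 0 := by
  let f : E 4 →ₗ[ℝ] (Fin 3 → ℝ) := LinearMap.pi ![innerₛₗ ℝ a, innerₛₗ ℝ b, innerₛₗ ℝ c]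
  have hker : LinearMap.ker f ≠ ⊥ := LinearMap.ker_ne_bot_of_finrank_lt (by simp)
  obtain ⟨x, hx, hx0⟩ := Submodule.exists_mem_ne_zero_of_ne_bot hker
  have hf : f x = 0 := hx
  have h0 := congrFun hf 0
  have h1 := congrFun hf 1
  have h2 := congrFun hf 2
  simp only [f, LinearMap.pi_apply, Matrix.cons_val_zero, Matrix.cons_val_one, Matrix.cons_val,
    innerₛₗ_apply_apply, Pi.zero_apply] at h0 h1 h2
  have hn : ‖x‖ ≠ 0 := norm_ne_zero_iff.2 hx0
  refine ⟨(‖x‖)⁻¹ • x, ?_, ?_, ?_, ?_⟩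
  · rw [norm_smul, norm_inv, norm_norm, inv_mul_cancel₀ hn]
  · rw [real_inner_smul_right, h0, mul_zero]
  · rw [real_inner_smul_right, h1, mul_zero]
  · rw [real_inner_smul_right, h2, mul_zero]

/-- in a subspace of dimension one, two unit vectors agree up to sign -/
lemma line_unit {n : ℕ} {U : Submodule ℝ (E n)} (hU : finrank ℝ U ≤ 1) {y z : E n} (hy : y ∈ U)
    (hz : z ∈ U) (hy1 : ‖y‖ = 1) (hz1 : ‖z‖ = 1) : z = y ∨ z = -y := by
  have hy0 : (⟨y, hy⟩ : U) ≠ 0 := by
    intro h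
    have : y = 0 := congrArg Subtype.val h
    rw [this, norm_zero] at hy1
    exact zero_ne_one hy1
  have hpos : 0 < finrank ℝ U := by
    have : Nontrivial U := ⟨⟨_, _, hy0⟩⟩
    exact finrank_pos
  have h1 : finrank ℝ U = 1 := by omega
  obtain ⟨r, hr⟩ := (finrank_eq_one_iff_of_nonzero' (⟨y, hy⟩ : U) hy0).1 h1 ⟨z, hz⟩
  have hr' : r • y = z := congrArg Subtype.val hr
  have : |r| = 1 := by
    have := congrArg norm hr'
    rw [norm_smul, hy1, hz1, mul_one, Real.norm_eq_abs] at this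
    exact this
  rcases eq_or_eq_neg_of_abs_eq this with h | h
  · left; rw [← hr', h, one_smul]
  · right; rw [← hr', h, neg_one_smul]

end H407

/-- the statement of localisation -/
def LocStatement : Prop := ∀ {n N : ℕ} (_ : N ≤ n * (n + 1) / 2) (_ : 1 ≤ N) (C : Col n N)
    (I : Set (Fin N)), ∃ U : Submodule ℝ (E n), C.cs U = I ∧ C.cs Uᗮ = Iᶜ

namespace H407

variable {C : Col 4 10} (K : Key C)

/-- M6a (4b),(4c): a coherent set of colours is met by a line -/
theorem face (hloc : LocStatement) (Q : Finset (Fin 10)) (hQ : Coh K.s Q)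
    (hne : Q.Nonempty) : ∃ y : E 4, ‖y‖ = 1 ∧ ∀ i, y ∈ C.F i ↔ i ∈ Q := by
  obtain ⟨U, hU, -⟩ := hloc (by norm_num) (by norm_num) C (Q : Set (Fin 10))
  have hc : ∀ u ∈ U, ‖u‖ = 1 → C.c u ∈ Q := by
    intro u hu hu1
    have : C.c u ∈ C.cs U := ⟨u, hu, mem_F C hu1⟩
    rw [hU] at this
    exact_mod_cast this
  have hdim : finrank ℝ U ≤ 1 := by
    by_contra h
    exact no_plane K U (by omega) Q hQ hc
  obtain ⟨i, hi⟩ := hne
  have hi' : i ∈ C.cs U := by rw [hU]; exact_mod_cast hi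
  obtain ⟨y, hyU, hyF⟩ := hi'
  refine ⟨y, F_unit C hyF, fun j => ⟨fun hj => ?_, fun hj => ?_⟩⟩
  · have : j ∈ C.cs U := ⟨y, hyU, hj⟩
    rw [hU] at this
    exact_mod_cast this
  · have hj' : j ∈ C.cs U := by rw [hU]; exact_mod_cast hj
    obtain ⟨z, hzU, hzF⟩ := hj'
    rcases line_unit hdim hyU hzU (F_unit C hyF) (F_unit C hzF) with h | h
    · rw [h] at hzF; exact hzF
    · rw [h] at hzF
      have := F_neg C hzF
      rwa [neg_neg] at this

/-- M6a (4e) -/
theorem meet (hloc : LocStatement) (A B : Finset (Fin 10)) (hA : A.card = 4)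
    (hB : B.card = 4) (hcA : Coh K.s A) (hcB : Coh K.s B) : ¬ Disjoint A B := by
  intro hd
  obtain ⟨y, hy1, hy⟩ := face K hloc A hcA (Finset.card_pos.1 (by omega))
  obtain ⟨z, hz1, hz⟩ := face K hloc B hcB (Finset.card_pos.1 (by omega))
  have hcard : ((A ∪ B)ᶜ).card = 2 := by
    rw [Finset.card_compl, Finset.card_union_of_disjoint hd, hA, hB]
    simp
  obtain ⟨p, q, hpq, hPQ⟩ := Finset.card_eq_two.1 hcard
  have hcP : Coh K.s ((A ∪ B)ᶜ) := by
    rw [hPQ]
    intro a ha b hb c hc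
    simp only [Finset.mem_insert, Finset.mem_singleton] at ha hb hc
    apply tt_degen
    rcases ha with rfl | rfl <;> rcases hb with rfl | rfl <;> rcases hc with rfl | rfl <;> simp
  obtain ⟨w, hw1, hw⟩ := face K hloc _ hcP (Finset.card_pos.1 (by omega))
  obtain ⟨x, hx1, h1, h2, h3⟩ := exists_orth y z w
  have hxF := mem_F C hx1
  have hnA : C.c x ∉ A := fun h => F_orth C ((hy _).2 h) hxF h1 rfl
  have hnB : C.c x ∉ B := fun h => F_orth C ((hz _).2 h) hxF h2 rfl
  have hnP : C.c x ∉ (A ∪ B)ᶜ := fun h => F_orth C ((hw _).2 h) hxF h3 rfl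
  rw [Finset.mem_compl, not_not, Finset.mem_union] at hnP
  rcases hnP with h | h
  · exact hnA h
  · exact hnB h

end H407


namespace H407

/-- the isometric embedding of `ℝ^3` onto the orthogonal complement of a unit vector -/
lemma exists_emb (y : E 4) (hy : ‖y‖ = 1) : ∃ φ : E 3 →ₗᵢ[ℝ] E 4, ∀ u, ⟪y, φ u⟫ = 0 := by
  have hy0 : y ≠ 0 := by
    rintro rfl
    rw [norm_zero] at hy
    exact zero_ne_one hy
  have hfin : finrank ℝ ((ℝ ∙ y)ᗮ : Submodule ℝ (E 4)) = 3 := by
    have h1 := Submodule.finrank_add_finrank_orthogonal (ℝ ∙ y)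
    rw [finrank_span_singleton hy0] at h1
    simp only [E, finrank_euclideanSpace, Fintype.card_fin] at h1
    simp only [E]
    omega
  let b := (stdOrthonormalBasis ℝ ((ℝ ∙ y)ᗮ : Submodule ℝ (E 4))).reindex (finCongr hfin)
  refine ⟨((ℝ ∙ y)ᗮ : Submodule ℝ (E 4)).subtypeₗᵢ.comp b.repr.symm.toLinearIsometry, ?_⟩
  intro u
  have := (b.repr.symm u).2
  rw [Submodule.mem_orthogonal_singleton_iff_inner_right] at this
  exact this

variable {C : Col 4 10} (K : Key C)

include K in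
lemma tt_one_of_plane (W : Submodule ℝ (E 4)) (hW : 2 ≤ finrank ℝ W) (a b c : Fin 10)
    (h : ∀ u ∈ W, ‖u‖ = 1 → C.c u ∈ ({a, b, c} : Finset (Fin 10))) : tt K.s a b c = 1 := by
  apply zmod2_eq_one
  intro h0
  exact no_plane K W hW _ (coh_triple K h0) h

/-- M6a (4d) -/
theorem compl (hloc : LocStatement) (A : Finset (Fin 10)) (hA : A.card = 4)
    (hc : Coh K.s A) (x y z x' y' z' : Fin 10)
    (h : ({x, y, z, x', y', z'} : Finset (Fin 10)) = Aᶜ) :
    tt K.s x y z + tt K.s x' y' z' = 1 := by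
  obtain ⟨y0, hy1, hy⟩ := face K hloc A hc (Finset.card_pos.1 (by omega))
  obtain ⟨φ, hφ⟩ := exists_emb y0 hy1
  let col : Fin 6 → Fin 10 := ![x, y, z, x', y', z']
  have hcolmem : ∀ i ∈ Aᶜ, ∃ k, col k = i := by
    intro i hi
    rw [← h] at hi
    simp only [Finset.mem_insert, Finset.mem_singleton] at hi
    rcases hi with rfl | rfl | rfl | rfl | rfl | rfl
    · exact ⟨0, rfl⟩
    · exact ⟨1, rfl⟩
    · exact ⟨2, rfl⟩
    · exact ⟨3, rfl⟩
    · exact ⟨4, rfl⟩
    · exact ⟨5, rfl⟩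
  have hcA : ∀ u : E 3, ‖u‖ = 1 → ∃ k, col k = C.c (φ u) := by
    intro u hu
    apply hcolmem
    rw [Finset.mem_compl]
    intro hmem
    have hn : ‖φ u‖ = 1 := by rw [φ.norm_map, hu]
    exact F_orth C ((hy _).2 hmem) (mem_F C hn) (hφ u) rfl
  classical
  let c3 : E 3 → Fin 6 := fun u =>
    if hu : ‖u‖ = 1 then (hcA u hu).choose else 0
  have hc3 : ∀ u : E 3, ‖u‖ = 1 → col (c3 u) = C.c (φ u) := by
    intro u hu
    simp only [c3, dif_pos hu]
    exact (hcA u hu).choose_spec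
  -- `col` is injective
  have hcardA : (Aᶜ).card = 6 := by rw [Finset.card_compl, hA]; simp
  have hinj : Function.Injective col := by
    have himg : Finset.univ.image col = Aᶜ := by
      ext i
      constructor
      · intro hi
        obtain ⟨k, -, rfl⟩ := Finset.mem_image.1 hi
        rw [← h]
        fin_cases k <;> simp [col]
      · intro hi
        obtain ⟨k, hk⟩ := hcolmem i hi
        exact Finset.mem_image.2 ⟨k, Finset.mem_univ _, hk⟩
    have : (Finset.univ.image col).card = (Finset.univ : Finset (Fin 6)).card := by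
      rw [himg, hcardA]; simp
    have := Finset.card_image_iff.1 this
    exact fun a b hab => this (by simp) (by simp) hab
  let D : Col 3 6 :=
    { c := c3
      even := by
        intro u hu
        apply hinj
        have hu' : ‖-u‖ = 1 := by rw [norm_neg]; exact hu
        rw [hc3 _ hu', hc3 _ hu, map_neg, C.even _ (by rw [φ.norm_map, hu])]
      ε := C.ε
      ε_pos := C.ε_pos
      sep := by
        intro u v hu hv huv
        have h1 : C.c (φ u) = C.c (φ v) := by rw [← hc3 u hu, ← hc3 v hv, huv]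
        have h2 := C.sep (φ u) (φ v) (by rw [φ.norm_map, hu]) (by rw [φ.norm_map, hv]) h1
        rwa [φ.inner_map_map] at h2 }
  have hDF : ∀ (k : Fin 6) (w : E 3), w ∈ D.F k → φ w ∈ C.F (col k) := by
    intro k w hw
    have hmap : Set.MapsTo φ {x | ‖x‖ = 1 ∧ D.c x = k} {x | ‖x‖ = 1 ∧ C.c x = col k} := by
      rintro u ⟨hu1, hu2⟩
      refine ⟨by rw [φ.norm_map, hu1], ?_⟩
      rw [← hc3 u hu1]
      exact congrArg col hu2
    exact hmap.closure φ.continuous hw
  obtain ⟨U, hU, hU'⟩ := hloc (n := 3) (N := 6) (by norm_num) (by norm_num) D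
    ({0, 1, 2} : Set (Fin 6))
  have hsum := Submodule.finrank_add_finrank_orthogonal U
  have h3 : finrank ℝ (E 3) = 3 := by simp [E]
  rw [h3] at hsum
  have hpos : ∀ W : Submodule ℝ (E 3), ∀ k, k ∈ D.cs W → 1 ≤ finrank ℝ W := by
    rintro W k ⟨w, hw, hwF⟩
    have hw0 : (⟨w, hw⟩ : W) ≠ 0 := by
      intro h0
      have : w = 0 := congrArg Subtype.val h0
      have h1 := F_unit D hwF
      rw [this, norm_zero] at h1
      exact zero_ne_one h1
    have : Nontrivial W := ⟨⟨_, _, hw0⟩⟩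
    exact finrank_pos
  have hU1 : 1 ≤ finrank ℝ U := hpos U 0 (by rw [hU]; simp)
  have hU2 : 1 ≤ finrank ℝ Uᗮ := hpos Uᗮ 3 (by rw [hU']; simp)
  -- the one-dimensional part
  have hline : ∀ (W : Submodule ℝ (E 3)) (i j k : Fin 6), finrank ℝ W ≤ 1 → i ∈ D.cs W →
      j ∈ D.cs W → k ∈ D.cs W → tt K.s (col i) (col j) (col k) = 0 := by
    rintro W i j k hW ⟨u, hu, huF⟩ ⟨v, hv, hvF⟩ ⟨w, hw, hwF⟩
    have hvF' : u ∈ D.F j := by
      rcases line_unit hW hu hv (F_unit D huF) (F_unit D hvF) with e | e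
      · rwa [e] at hvF
      · rw [e] at hvF
        have := F_neg D hvF
        rwa [neg_neg] at this
    have hwF' : u ∈ D.F k := by
      rcases line_unit hW hu hw (F_unit D huF) (F_unit D hwF) with e | e
      · rwa [e] at hwF
      · rw [e] at hwF
        have := F_neg D hwF
        rwa [neg_neg] at this
    exact tt_zero K (hDF _ _ huF) (hDF _ _ hvF') (hDF _ _ hwF')
  -- the two-dimensional part
  have hplane : ∀ (W : Submodule ℝ (E 3)) (i j k : Fin 6), 2 ≤ finrank ℝ W →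
      (∀ m ∈ D.cs W, m = i ∨ m = j ∨ m = k) → tt K.s (col i) (col j) (col k) = 1 := by
    intro W i j k hW hm
    have hfr : finrank ℝ (W.map φ.toLinearMap) = finrank ℝ W :=
      (Submodule.equivMapOfInjective φ.toLinearMap φ.injective W).finrank_eq.symm
    apply tt_one_of_plane K (W.map φ.toLinearMap) (by rw [hfr]; exact hW)
    rintro _ ⟨u, hu, rfl⟩ hu1
    have hu1' : ‖u‖ = 1 := by
      rw [← φ.norm_map u]; exact hu1
    have hk := hm (D.c u) ⟨u, hu, mem_F D hu1'⟩
    have : C.c (φ u) = col (D.c u) := (hc3 u hu1').symm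
    change C.c (φ u) ∈ _
    rw [this]
    simp only [Finset.mem_insert, Finset.mem_singleton]
    rcases hk with e | e | e
    · left; rw [e]
    · right; left; rw [e]
    · right; right; rw [e]
  have hcompl : ∀ m ∈ D.cs Uᗮ, m = 3 ∨ m = 4 ∨ m = 5 := by
    intro m hm
    rw [hU'] at hm
    revert hm
    fin_cases m <;> simp
  have hself : ∀ m ∈ D.cs U, m = 0 ∨ m = 1 ∨ m = 2 := by
    intro m hm
    rw [hU] at hm
    simpa using hm
  rcases Nat.lt_or_ge (finrank ℝ U) 2 with hlt | hge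
  · have e1 : tt K.s x y z = 0 := hline U 0 1 2 (by omega) (by rw [hU]; simp)
      (by rw [hU]; simp) (by rw [hU]; simp)
    have e2 : tt K.s x' y' z' = 1 := hplane Uᗮ 3 4 5 (by omega) hcompl
    rw [e1, e2, zero_add]
  · have e1 : tt K.s x y z = 1 := hplane U 0 1 2 hge hself
    have e2 : tt K.s x' y' z' = 0 := hline Uᗮ 3 4 5 (by omega) (by rw [hU']; simp)
      (by rw [hU']; simp) (by rw [hU']; simp)
    rw [e1, e2, add_zero]

end H407

end P052D
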