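import Vale.Agent.P052.R2.H353.Defs
import Vale.Agent.P052.R2.H243.Hemi

/-!
# P052, discrete route, module M1 (helper407): fine antipodal chains on the unit sphere of a
normed space, in the form of `P052D.Hemi` (from the chains of helper243)
-/

namespace P052D

open Module

namespace H407

open Vale.Agent.P052.R2

lemma dl_eq {V : Type*} (φ : List V → ZMod 2) (l : List V) : dl φ l = H243.dl φ l := by
  induction l generalizing φ with
  | nil => simp [dl, H243.dl, H243.bd]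
  | cons x l ih =>
    have h1 : dl φ (x :: l) = φ l + dl (fun m => φ (x :: m)) l := by
      unfold dl
      rw [List.length_cons, Finset.sum_range_succ']
      simp only [List.eraseIdx_cons_succ, List.eraseIdx_cons_zero]
      rw [add_comm]
    rw [h1, ih]
    unfold H243.dl
    rw [H243.bd, H243.ev_cons, H243.ev_map]

lemma ev_eq {V : Type*} (φ : List V → ZMod 2) (c : List (List V)) : ev φ c = H243.ev φ c := rfl

lemma dl_map {V W : Type*} (f : V → W) (φ : List W → ZMod 2) (l : List V) :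
    dl φ (l.map f) = dl (fun m => φ (m.map f)) l := by
  unfold dl
  rw [List.length_map]
  apply Finset.sum_congr rfl
  intro i _
  rw [List.eraseIdx_map]

end H407

open Vale.Agent.P052.R2 in
/-- M1 -/
theorem exists_hemi (V : Type*) [NormedAddCommGroup V] [NormedSpace ℝ V] [FiniteDimensional ℝ V]
    (N : ℕ) (hN : N ≤ finrank ℝ V) (hN1 : 1 ≤ N) (δ : ℝ) (hδ : 0 < δ) :
    Nonempty (Hemi V N δ) := by
  -- an injective linear map
  obtain ⟨L, hL⟩ : ∃ L : (Fin N → ℝ) →ₗ[ℝ] V, Function.Injective L := by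
    have hli : LinearIndependent ℝ (fun i : Fin N => finBasis ℝ V (Fin.castLE hN i)) :=
      (finBasis ℝ V).linearIndependent.comp _ (Fin.castLE_injective hN)
    exact ⟨_, hli.fintypeLinearCombination_injective⟩
  let Lc : (Fin N → ℝ) →L[ℝ] V := LinearMap.toContinuousLinearMap L
  have hLc : ∀ x, Lc x = L x := fun x => rfl
  -- lower bound on the l^1 sphere
  obtain ⟨c, hc, hlow⟩ : ∃ c > 0, ∀ x : Fin N → ℝ, ∑ i, |x i| = 1 → c ≤ ‖L x‖ := by
    let S : Set (Fin N → ℝ) := {x | ∑ i, |x i| = 1}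
    have hSc : IsCompact S := by
      apply Metric.isCompact_of_isClosed_isBounded
      · exact isClosed_eq (by fun_prop) continuous_const
      · rw [Metric.isBounded_iff_subset_closedBall (0 : Fin N → ℝ)]
        refine ⟨1, fun x hx => ?_⟩
        rw [mem_closedBall_zero_iff, pi_norm_le_iff_of_nonneg zero_le_one]
        intro i
        exact H243.abs_le_one_of_sum hx i
    have hne : S.Nonempty := by
      refine ⟨H243.ue N 0, ?_⟩
      exact H243.sum_abs_ue (by omega)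
    obtain ⟨x0, hx0, hmin⟩ := hSc.exists_isMinOn hne
      (f := fun x => ‖Lc x‖) (by fun_prop)
    refine ⟨‖L x0‖, ?_, fun x hx => hmin hx⟩
    rw [gt_iff_lt, norm_pos_iff]
    intro h0
    have hz : x0 = 0 := hL (by rw [h0, map_zero])
    have hx0' : ∑ i, |x0 i| = 1 := hx0
    rw [hz] at hx0'
    simp at hx0'
  let p : (Fin N → ℝ) → V := fun x => (‖L x‖)⁻¹ • L x
  have hpneg : ∀ x, p (-x) = -p x := by
    intro x
    simp only [p, map_neg, norm_neg, smul_neg]
  have hpunit : ∀ x : Fin N → ℝ, ∑ i, |x i| = 1 → ‖p x‖ = 1 := by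
    intro x hx
    have : 0 < ‖L x‖ := lt_of_lt_of_le hc (hlow x hx)
    simp only [p]
    rw [norm_smul, norm_inv, norm_norm, inv_mul_cancel₀ this.ne']
  have hpdist : ∀ x y : Fin N → ℝ, ∑ i, |x i| = 1 → ∑ i, |y i| = 1 →
      ‖p x - p y‖ ≤ 2 / c * ‖L x - L y‖ := by
    intro x y hx hy
    have h1 : c ≤ ‖L x‖ := hlow x hx
    have h2 : c ≤ ‖L y‖ := hlow y hy
    have h1' : 0 < ‖L x‖ := lt_of_lt_of_le hc h1
    have h2' : 0 < ‖L y‖ := lt_of_lt_of_le hc h2
    have e : p x - p y = (‖L x‖)⁻¹ • (L x - L y) + ((‖L x‖)⁻¹ - (‖L y‖)⁻¹) • L y := by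
      simp only [p]
      module
    rw [e]
    have e2 : ‖((‖L x‖)⁻¹ - (‖L y‖)⁻¹) • L y‖ ≤ (‖L x‖)⁻¹ * ‖L x - L y‖ := by
      rw [norm_smul, Real.norm_eq_abs]
      have : (‖L x‖)⁻¹ - (‖L y‖)⁻¹ = (‖L x‖)⁻¹ * (‖L y‖ - ‖L x‖) * (‖L y‖)⁻¹ := by
        field_simp
      rw [this, abs_mul, abs_mul, abs_of_pos (inv_pos.2 h1'), abs_of_pos (inv_pos.2 h2')]
      rw [mul_assoc, inv_mul_cancel₀ h2'.ne', mul_one]
      gcongr
      rw [abs_sub_comm]
      exact abs_norm_sub_norm_le _ _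
    calc ‖(‖L x‖)⁻¹ • (L x - L y) + ((‖L x‖)⁻¹ - (‖L y‖)⁻¹) • L y‖
        ≤ ‖(‖L x‖)⁻¹ • (L x - L y)‖ + ‖((‖L x‖)⁻¹ - (‖L y‖)⁻¹) • L y‖ := norm_add_le _ _
      _ ≤ (‖L x‖)⁻¹ * ‖L x - L y‖ + (‖L x‖)⁻¹ * ‖L x - L y‖ := by
          gcongr
          rw [norm_smul, norm_inv, norm_norm]
      _ = 2 * (‖L x‖)⁻¹ * ‖L x - L y‖ := by ring
      _ ≤ 2 / c * ‖L x - L y‖ := by
          gcongr
          rw [div_eq_mul_inv]
          gcongr
  have hLd : ∀ x y : Fin N → ℝ, ‖L x - L y‖ ≤ ‖Lc‖ * ‖x - y‖ := by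
    intro x y
    rw [← map_sub]
    exact Lc.le_opNorm _
  -- the number of steps
  obtain ⟨M, hM⟩ := exists_nat_gt (2 / c * (‖Lc‖ * (2 * N)) / δ)
  have hMpos : 0 < M := by
    rcases Nat.eq_zero_or_pos M with h | h
    · subst h
      have : 0 ≤ 2 / c * (‖Lc‖ * (2 * N)) / δ := by positivity
      simp only [Nat.cast_zero] at hM
      linarith
    · exact h
  have hM' : (0 : ℝ) < M := by exact_mod_cast hMpos
  refine ⟨{ h := fun k => (H243.hemi N M k).map (List.map p), len := ?_, unit := ?_, mesh := ?_,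
            zero := ?_, bd := ?_ }⟩
  · intro k _ l hl
    obtain ⟨m, hm, rfl⟩ := List.mem_map.1 hl
    rw [List.length_map]
    exact H243.length_of_mem_hemi hm
  · intro k hk l hl x hx
    obtain ⟨m, hm, rfl⟩ := List.mem_map.1 hl
    obtain ⟨y, hy, rfl⟩ := List.mem_map.1 hx
    exact hpunit y (H243.point_hemi hk hm hy).1
  · intro k hk l hl x hx y hy
    obtain ⟨m, hm, rfl⟩ := List.mem_map.1 hl
    obtain ⟨u, hu, rfl⟩ := List.mem_map.1 hx
    obtain ⟨v, hv, rfl⟩ := List.mem_map.1 hy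
    have h1 := hpdist u v (H243.point_hemi hk hm hu).1 (H243.point_hemi hk hm hv).1
    have h2 : ‖u - v‖ ≤ 2 * N / M := by
      rw [pi_norm_le_iff_of_nonneg (by positivity)]
      intro i
      have := H243.mesh_hemi hMpos hk hm hu hv i
      rw [Pi.sub_apply, Real.norm_eq_abs]
      refine this.trans ?_
      have hkN : (k : ℝ) ≤ N := by exact_mod_cast hk.le
      gcongr
    calc ‖p u - p v‖ ≤ 2 / c * ‖L u - L v‖ := h1
      _ ≤ 2 / c * (‖Lc‖ * ‖u - v‖) := by gcongr; exact hLd u v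
      _ ≤ 2 / c * (‖Lc‖ * (2 * N / M)) := by gcongr
      _ = (2 / c * (‖Lc‖ * (2 * N))) / M := by ring
      _ < δ := by
          rw [div_lt_iff₀ hM']
          rw [div_lt_iff₀ hδ] at hM
          linarith
  · exact ⟨p (H243.ue N 0), by simp [H243.hemi]⟩
  · intro k _ φ
    have e1 : ev (dl φ) ((H243.hemi N M (k + 1)).map (List.map p)) =
        H243.ev (H243.dl (fun m => φ (m.map p))) (H243.hemi N M (k + 1)) := by
      rw [H407.ev_eq, H243.ev_map]
      congr 1
      funext l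
      rw [H407.dl_map, H407.dl_eq]
    rw [e1, H243.bd_hemi hMpos k, H407.ev_eq, H243.ev_map, H407.ev_eq, H243.ev_map, H243.ev_neg2]
    congr 1
    congr 1
    funext l
    rw [List.map_map, List.map_map]
    congr 1
    apply List.map_congr_left
    intro x _
    exact hpneg x

end P052D
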